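import Mathlib
import Vale.Agent.P060.DenseMinor

/-!
Hadwiger's conjecture when each vertex has few non-neighbours.
-/

theorem Vale.Agent.Results.P060.DenseGapHadwiger.result :
    ∀ (V : Type) [Fintype V] [DecidableEq V] (G : SimpleGraph V) (d : ℕ),
      (∀ v, (Gᶜ.neighborSet v).ncard ≤ d) →
        ((G.cliqueNum + 2 * d ^ 2 < Fintype.card V ∨
            2 ^ 24 * d ^ 4 ≤ (G.chromaticNumber.toNat - G.cliqueNum) ^ 3) →
          ∃ B : Fin G.chromaticNumber.toNat → Finset V, (∀ i, (B i).Nonempty) ∧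
            (∀ i, (G.induce (B i : Set V)).Connected) ∧
            ∀ i j, i ≠ j → Disjoint (B i) (B j) ∧ ∃ a ∈ B i, ∃ b ∈ B j, G.Adj a b) ∧
        (2 ^ 24 * d ^ 4 ≤ (Fintype.card V / 2) ^ 3 →
          ∃ B : Fin ((Fintype.card V + 1) / 2) → Finset V, (∀ i, (B i).Nonempty) ∧
            (∀ i, (G.induce (B i : Set V)).Connected) ∧
            ∀ i j, i ≠ j → Disjoint (B i) (B j) ∧ ∃ a ∈ B i, ∃ b ∈ B j, G.Adj a b) :=
  fun _ _ _ G d hd =>
    ⟨fun h => h.elim (fun h => Vale.Agent.P060.hadwiger_dense G d hd h)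
        (fun h => Vale.Agent.P060.gap_minor G d hd h),
      fun h => Vale.Agent.P060.half_minor G d hd h⟩
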